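import Crest.Agent.X212.Lns95.Lf
import Crest.Agent.X212.Rf65.Pl

/-!
# Row 212, RF-LIX (helper26): the leaves of `Rf65.LixStmt` and `Rf65.LyStmt`
-/

set_option autoImplicit false
set_option linter.unusedSectionVars false
noncomputable section
open scoped Manifold ContDiff Topology Real
open Set Function Filter MeasureTheory
open Crest.Agent.R208.F (Ext)

namespace Crest.Agent.X212.Lix26
open An Nd18 Num57 Cyf70 Qab60 Lns95 Rdc90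
open M (Mf Band)
open Dr59 (dM Dg)
open Abel74 (fm)
open Dfl49 (PI One)
open Line51 (Ln ang CSm)
open Eqv71 (cj)
open Glue52 (dir)
open Rod53 (S3' L4)
open Rf65 (Ref dz PY)

/-- **LEAF DECK**: the deck group of the covering of the lens space -/
def DeckStmt : Prop := ∀ (X : Mf 4) [CompactSpace X.M] (o : X.M → Ext X.E) (n : ℕ) (B : Band X)
  (κ : Type) [Fintype κ] (e : κ → Met55.VF B.Y.I B.Y.M) (L : LB X o n B e) (y y' : S3'),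
  L.c y = L.c y' ↔ ∃ ζ : ℂ, ζ ^ n = 1 ∧ L4 y' = ζ • L4 y

/-- `Y = S³ / μ₄` -/
structure Cv4 {Y : Mf 3} (cv : S3' → Y.M) : Prop where
  ld : IsLocalDiffeomorph (𝓡 3) Y.I ∞ cv
  sj : Surjective cv
  dk : ∀ y y', cv y = cv y' ↔ ∃ ζ : ℂ, ζ ^ 4 = 1 ∧ L4 y' = ζ • L4 y

section gauge
variable {E : Type} [NormedAddCommGroup E] [NormedSpace ℝ E] [FiniteDimensional ℝ E]
  [MeasurableSpace E] [BorelSpace E]
  {HM : Type} [TopologicalSpace HM] (I : ModelWithCorners ℝ E HM) [I.Boundaryless]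
  (M : Type) [TopologicalSpace M] [ChartedSpace HM M] [IsManifold I ∞ M] [T2Space M]
  [MeasurableSpace M] [BorelSpace M] [SecondCountableTopology M]
  (ι : Type) [Fintype ι] (lam : Type) [Fintype lam]

/-- **LEAF REFL**: a spin^c structure on `O(-4)` whose determinant is the line of degree `± 2` -/
def ReflStmt [DecidableEq lam] : Prop := ∀ (o : M → Ext E) (Ω : Set M) (Ds : Dsc I o 4 Ω) (P : Prf 4)
  (μ : ℝ) (L : Ln E M lam) (s : Bool → M → Matrix lam Unit ℂ), Module.finrank ℝ E = 4 →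
  |μ| = 1 / 2 → L.On I univ → (∀ b, L.Fr I (s b) (P.al I μ (Ds.u b) (Ds.w b)) (Ds.O b)) →
  Ref I L.p Ω 0

variable {I M ι lam} in
/-- `(c, ξ)` is `(c₀ + A b ξ₀, ξ₀)` over `O b`, clutched by `exp (± arg e ξ₀)` -/
structure Twi {r : ℕ} (F : Fr I M ι) (O : Bool → Set M) (e : M → Circle) (A : Bool → M → Ext E)
    (c₀ : Cfg M ι lam r) (ξ₀ : M → c₀.m.A) (c : Cfg M ι lam r) (ξ : M → c.m.A)
    (v : Bool → M → CL c₀.m.V c.m.V) (ε : ℤ) : Prop where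
  sg : ε = 1 ∨ ε = -1
  pi : ∀ b, PI F (ada F c₀ ξ₀ (A b)) c (O b) (v b)
  cj : ∀ b, ∀ x ∈ O b, ξ x = cj (v b x) (ξ₀ x)
  tr : ∀ x ∈ O false ∩ O true, v true x = v false x ∘L csE (opL (ξ₀ x)) (e x ^ ε : Circle)
  fm : ∀ b, ∀ x ∈ O b, fm F c.m c.W ξ x = fm F c₀.m c₀.W ξ₀ x + dM I (A b) x

/-- **LEAF TW**: twisting an abelian point by a line given by a clutching function -/
def TwStmt : Prop := ∀ (r : ℕ) (B : Base M ι lam) (G : Geo I M ι lam) (Ω : Set M)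
  (c₀ : Cfg M ι lam r) (ξ₀ : M → c₀.m.A) (O : Bool → Set M) (e : M → Circle)
  (A : Bool → M → Ext E), B.OK I → G.OK B → IsClopen Ω → Ab B G Ω c₀ ξ₀ → (∀ b, IsOpen (O b)) →
  O false ∪ O true = Ω → (∀ b, Dr59.Sm I (O b) (A b) ∧ Dg 1 (O b) (A b)) →
  (∀ x ∈ O false ∩ O true, CSm I e x ∧ A true x = A false x + ang I e x) →
  ∃ (c : Cfg M ι lam r) (ξ : M → c.m.A) (v : Bool → M → CL c₀.m.V c.m.V) (ε : ℤ),
    Ab B G Ω c ξ ∧ Twi G.F O e A c₀ ξ₀ c ξ v ε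

end gauge

section cyl
variable {Y : Mf 3} [CompactSpace Y.M] {κ : Type} [Fintype κ] {lam : Type} [Fintype lam]

/-- **LEAF CY**: flat connections on the lens space are reducible -/
def CyStmt (D : YD Y.I Y.M κ lam) : Prop := ∀ cv : S3' → Y.M, Cv4 cv → ∀ β, Bs D β →
  dz D β ≠ 0 ∧ ∃ ξ : Y.M → β.m.A, Abel74.Red D.Z (cy β).m (cy β).W fun q => ξ q.1

variable {E : Type} [NormedAddCommGroup E] [NormedSpace ℝ E] [FiniteDimensional ℝ E]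
  [MeasurableSpace E] [BorelSpace E]
  {HM : Type} [TopologicalSpace HM] (I : ModelWithCorners ℝ E HM) [I.Boundaryless]
  (M : Type) [TopologicalSpace M] [ChartedSpace HM M] [IsManifold I ∞ M] [T2Space M]
  [MeasurableSpace M] [BorelSpace M] [SecondCountableTopology M]

/-- **LEAF AS**: the anti-self-dual representative; the rate depends on the cross-section only -/
def AsStmt (D : YD Y.I Y.M κ lam) : Prop := D.OK → ∃ d > (0 : ℝ), ∀ (r : ℕ)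
  (B : Base M (Option κ) lam) (G : Geo I M (Option κ) lam) (K : Nk D B G) (Ω : Set M)
  (w : M → Ext E) (c : Cfg M (Option κ) lam r) (ξ : M → c.m.A) (t : ℝ) β, Ins K Ω w →
  Ab B G Ω c ξ → EqOn (fm G.F c.m c.W ξ) (t • w) Ω → Bs D β → K.Std c.con β 1 atTop →
  ∃ a, Fo I 1 a ∧ Off Ω a ∧ K.ELim d (ada G.F c ξ a).con β 1 atTop ∧
    (∀ x ∈ Ω, c.m.p2 B x (c.m.Fg G.F (ada G.F c ξ a).W x) = 0) ∧
    IntegrableOn (fun x => ‖c.m.Fg G.F (ada G.F c ξ a).W x‖ ^ 2) Ω G.F.μ ∧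
    IntegrableOn (c.m.kd B G.F (ada G.F c ξ a).W) Ω G.F.μ ∧
    ∫ x in Ω, c.m.kd B G.F (ada G.F c ξ a).W x ∂G.F.μ = t ^ 2

variable [DecidableEq lam] {D : YD Y.I Y.M κ (lam ⊕ lam)} {I M}
  {B : Base M (Option κ) (lam ⊕ lam)} {G : Geo I M (Option κ) (lam ⊕ lam)}

/-- the model of the inside `Ω` of a lens wall -/
structure Mdl (K : Nk D B G) (Ω : Set M) where
  o : M → Ext E
  Ds : Dsc I o 4 Ω
  P : Prf 4
  h : ℝ → ℝ
  μ : ℝ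
  w : M → Ext E
  cv : S3' → Y.M
  L : Ln E M lam
  s : Bool → M → Matrix lam Unit ℂ

namespace Mdl
variable {K : Nk D B G} {Ω : Set M} (d : Mdl K Ω)

/-- the potential of the line -/
abbrev al (b : Bool) : M → Ext E := d.P.al I d.μ (d.Ds.u b) (d.Ds.w b)

structure OK : Prop where
  mo : Mo B G d.Ds d.P d.h
  hH : ∃ ε > (0 : ℝ), EqOn d.h d.P.H (Iio ε)
  ins : Ins K Ω d.w
  hμ : |d.μ| = 1 / 2
  lo : d.L.On I univ
  eB : B = d.L.base G.F.P B.o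
  eG : G = d.L.geo G.F
  fr : ∀ b, d.L.Fr I (d.s b) (d.al b) (d.Ds.O b)
  wa : ∀ b, ∀ x ∈ d.Ds.O b, d.w x = dM I (d.al b) x
  cv : Cv4 d.cv
  nk : ∀ b y t, 0 < t → (Th b y).2 ≠ 0 → K.ψ (d.cv y, t) ∈ d.Ds.O b ∧
    d.Ds.u b (K.ψ (d.cv y, t)) = (Th b y).1 * ((dir (Th b y).2)⁻¹ : Circle) ∧
    ∃ ρ : ℝ, 0 < ρ ∧ d.Ds.w b (K.ψ (d.cv y, t)) = ρ * (dir (Th b y).2 ^ 4 : Circle)
  fl : ∀ b, ∀ x ∈ d.Ds.O b, 0 < K.tm x → d.P.f (‖d.Ds.w b x‖ ^ 2) = 1 ∧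
    d.P.f1 (‖d.Ds.w b x‖ ^ 2) = 0 ∧ d.P.f2 (‖d.Ds.w b x‖ ^ 2) = 0
  rad : ∃ R : ℝ → ℝ, MonotoneOn R (Ioi 0) ∧ ∀ b (q : Y.M × ℝ), 0 < q.2 → K.ψ q ∈ d.Ds.O b →
    ‖d.Ds.w b (K.ψ q)‖ ^ 2 = R q.2

/-- the twist of order `j` of `(c₀, ξ₀)` -/
def Tw {r : ℕ} (j : ℤ) (c₀ : Cfg M (Option κ) (lam ⊕ lam) r) (ξ₀ : M → c₀.m.A)
    (c : Cfg M (Option κ) (lam ⊕ lam) r) (ξ : M → c.m.A) : Prop :=
  ∃ (v : Bool → M → CL c₀.m.V c.m.V) (k ε : ℤ), |k| = |j| ∧ Twi G.F d.Ds.O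
    (fun x => dir (d.Ds.u false x) ^ k) (fun b => (j / 2 : ℝ) • d.al b) c₀ ξ₀ c ξ v ε

end Mdl

variable (D I M)

/-- **LEAF CL** (from TW): every flat limit is the end of a twist of the flat point -/
def ClStmt : Prop := ∀ (r : ℕ) (B : Base M (Option κ) (lam ⊕ lam))
  (G : Geo I M (Option κ) (lam ⊕ lam)) (K : Nk D B G) (Ω : Set M) (d : Mdl K Ω)
  (c₀ : Cfg M (Option κ) (lam ⊕ lam) r) (ξ₀ : M → c₀.m.A) β (η : Y.M → β.m.A), d.OK →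
  Ab B G Ω c₀ ξ₀ → (∀ x ∈ Ω, fm G.F c₀.m c₀.W ξ₀ x = 0) → Bs D β →
  (Abel74.Red D.Z (cy β).m (cy β).W fun q => η q.1) →
  ∃ (j : ℤ) (c : Cfg M (Option κ) (lam ⊕ lam) r) (ξ : M → c.m.A), |j| ≤ 2 ∧ Ab B G Ω c ξ ∧
    d.Tw j c₀ ξ₀ c ξ ∧ K.Std c.con β 1 atTop ∧ (Odd j → dz D β ≠ 3)

end cyl

/-! ### jobs -/

section job
open M Rf65
variable {Wi : Type} {X : Mf 4} {A κ lam : Type} [Fintype A] [Fintype κ] [Fintype lam]
  [DecidableEq lam] {M : Mark X A κ} {W : World M} {N : ML M lam} {Λ : Lns W N}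
  {A' h : Type} [Fintype A'] [DecidableEq A'] [Fintype h] {r n : ℕ}
  (J : Job Wi Λ A' h r n) (c : M.Cl)

/-- **LEAF CAT**: a chain is appended to an end; the level is added modulo `ℤ`, up to `ε` -/
def Cat : Prop := J.OK → ∀ a ∈ cylW c, Ink3.Nil (J.xs a).N → ∀ b, PY (J.xs a).D b →
  ∀ δ (y : J.Obc c) ρ γ ζ ζ' k j, 0 < δ → ρ ∈ Pc c → ρ a = some false → Go δ y {ρ} →
  (J.xs a).N.Crit (J.xs a).D (y.β a false) →
  (J.xs a).N.Brk (J.xs a).D 0 (y.β a false) ζ γ ζ' k j → ∀ ε > (0 : ℝ),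
  ∃ (y' : J.Obc c) (m : ℤ), y'.s = y.s ∧ Go δ y' {ρ} ∧ (J.xs a).D.Eqv γ (y'.β a false) ∧
    |y'.kap (W.pc c ρ) - y.kap (W.pc c ρ) - k - m| < ε

variable (δ : ℝ) (l : A)

/-- the level inside `l` -/
abbrev kI {J : Job Wi Λ A' h r n} {c : M.Cl} (z : J.Obc c) (l : A) : ℝ := z.kap (W.pc c (hp l false))

/-- the fillers -/
def FilAt : Prop := ∀ (y : J.Obc c) γ, J.Θ y.s ∈ M.Br c.1 → J.Θ y.s ∈ M.O c.1 →
  y.x.Adm (J.B c) (J.G c y.s) → Bs (J.xs l).D γ → ∃ (z : J.Obc c) (ξ : _) (j : ℕ), j ≤ 2 ∧ z.s = y.s ∧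
    Go δ z {hp l false} ∧ Ab (J.B c) (J.G c z.s) (W.pc c (hp l false)) z.x ξ ∧ EA 0 z (hp l false) ∧
    (J.xs l).D.Eqv γ (z.β l false) ∧ kI z l = j ^ 2 / 4 ∧ (j = 1 → dz (J.xs l).D γ ≠ 3)

/-- two objects with the same limit -/
def DifAt : Prop := ∀ σ ∈ J.𝒦, ∀ q (y z z' : J.Obc c), Job.Sol σ q y → z.s = y.s → z'.s = y.s →
  Go δ z {hp l false} → Go δ z' {hp l false} → (J.xs l).D.Eqv (z.β l false) (z'.β l false) →
  (∃ m : ℤ, kI z' l - kI z l = m) ∧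
    (ia δ z' (hp l false) : ℝ) - 8 * kI z' l = ia δ z (hp l false) - 8 * kI z l ∧
    (idr δ z' (hp l false) : ℝ) + 2 * kI z' l = idr δ z (hp l false) + 2 * kI z l

/-- the numbers of the fillers -/
def NumAt : Prop := ∀ σ ∈ J.𝒦, ∀ q (y z : J.Obc c), Job.Sol σ q y → z.s = y.s →
  Go δ z {hp l false} → (Fl z (hp l false) → 0 ≤ ia δ z (hp l false) ∧ 0 ≤ idr δ z (hp l false)) ∧
  ∀ ξ, Ab (J.B c) (J.G c z.s) (W.pc c (hp l false)) z.x ξ → EA 0 z (hp l false) →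
    (kI z l = 1 / 4 → 2 ≤ ia δ z (hp l false) ∧ 0 ≤ idr δ z (hp l false)) ∧
    (kI z l = 1 → 1 ≤ ia δ z (hp l false) ∧ 3 ≤ ia δ z (hp l false) + idr δ z (hp l false))

end job

/-! ### scenes -/

section scene
open M G75 Ins26 Rf65
variable {κ lam : Type} [Fintype κ] [Fintype lam] [DecidableEq lam] (Lm : LM κ lam)

/-- **LEAF GEO2**: the model of the inside of a broken lens wall -/
def Geo2Stmt : Prop := ∀ (S : Scene Lm) (D : S.Dat) (i : S.L) (l : S.ls) (m c : S.M.Cl) (p : Prm S.A)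
  (Wi : Type) (Y : Xs Wi κ lam) (g : Y.Y.M ≃ₘ^∞⟮Y.Y.I, (S.M.bn l).Y.I⟯ (S.M.bn l).Y.M)
  (K : Nk Y.D ((D.Λ i).B m c) ((D.Λ i).G m c p)), S.OK → Act m c l.1 (some false) p →
  Y.C.OK → IsNk l.1 (some false) g K → ∃ d : Mdl K (Om D c l), d.OK ∧
    |Hol14.flux (D.W.Z c).I ((Tp.of (D.W.φ c).toPartialEquiv fun x =>
      Line51.rl ((D.Λ i).v m c x)).cut (S.ct i l)) d.w| = 4 * π

/-- **LEAF PYL**: the cross-sections of lens walls -/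
def PylStmt : Prop := ∀ (S : Scene Lm) (D : S.Dat) i Wi r n
  (J : Job Wi (D.Λ i) (S.A ⊕ Unit) S.ls r n), S.OK → J.OK → ∀ l ∈ S.ls,
  PY (J.xs l).D 0 ∧ ∃ cv : S3' → (J.xs l).Y.M, Cv4 cv

/-- **LEAF NUM** -/
def NumStmt : Prop := AllG Lm fun S _ _ _ _ _ J _ _ c δ _ => SplAt J c δ → DecAt J c δ →
  AddAt J c δ → ∀ l ∈ S.ls, l ∈ c.1 → FilAt J c δ l → DifAt J c δ l → NumAt J c δ l

end scene

end Crest.Agent.X212.Lix26
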