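import Crest.Agent.X212.Lix26.Defs
import Crest.Agent.X212.Ins26.Geo
import Crest.Agent.X212.Lns4.Neck
import Crest.Agent.X212.Kl48.Reg

/-!
# Row 212, RF-LIX (helper26): the model of the inside of a broken lens wall
-/

set_option autoImplicit false
set_option linter.unusedSectionVars false
noncomputable section
open scoped Manifold ContDiff Topology Real
open Set Function Filter
open Crest.Agent.R208.F (Ext)

namespace Crest.Agent.X212.Lix26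
open An M G75 Lns95 Dr59 Ins26 Ins26.On Rf65
open Line51 (Ln rl)

variable {κ lam : Type} [Fintype κ] [Fintype lam] [DecidableEq lam] {Lm : LM κ lam}
  {S : Scene Lm} (hS : S.OK) (D : S.Dat) (l : S.ls) {m c : S.M.Cl} {p : Prm S.A}
include hS

omit D in
theorem only (hl : l.1 ∈ c.1) : Dfl49.Only S.M c.1 l false := fun a k =>
  or_iff_not_imp_left.2 fun e => hS.lsi l l.2 a e (c.2 k hl e)

omit D in
theorem piece (hl : l.1 ∈ c.1) : S.M.sys.Piece c.1 (hp l.1 false) :=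
  have := S.M.con
  have e : ∀ a ∈ Sys.bd (hp l.1 false), a = l := fun _ k => by_contra fun i => k (Kl48.hp_none.2 i)
  ⟨⟨fun a k a' k' i => (i ((e a k).trans (e a' k').symm)).elim, fun a b k => by
      obtain ⟨rfl, rfl⟩ := Kl48.hp_eq.1 k
      exact inter_subset_right.trans Kl48.U_hp.ge⟩, fun a k => e a k ▸ hl,
    fun a k i => Kl48.not_both (hS.lsi l l.2 a (Kl48.hp_none.1 i.1) (c.2 k hl (Kl48.hp_none.1 i.1)))
      (i.2.1.trans Kl48.U_hp.le)⟩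

theorem pc_eq (hl : l.1 ∈ c.1) : D.W.pc c (hp l.1 false) = Om D c l :=
  (only hS l hl).pc (hS.lsp l l.2) _ (piece hS l hl) (if_pos rfl)

theorem clop (hl : l.1 ∈ c.1) : IsClopen (Om D c l) :=
  pc_eq hS D l hl ▸ Cyl58.isClopen_pc _ (piece hS l hl)

variable (i : S.L) {Wi : Type} {Y : Xs Wi κ lam}
  {g : Y.Y.M ≃ₘ^∞⟮Y.Y.I, (S.M.bn l).Y.I⟯ (S.M.bn l).Y.M}
  {K : Nd18.Nk Y.D ((D.Λ i).B m c) ((D.Λ i).G m c p)}

theorem ins (H : LH Lm) (ha : Act m c l.1 (some false) p) (hY : Y.C.OK)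
    (hK : IsNk l.1 (some false) g K) :
    Ins K (Om D c l) ((Om D c l).indicator (FZ D m c p i)) ∧
      |Hol14.flux (D.W.Z c).I ((Tp.of (D.W.φ c).toPartialEquiv fun x =>
        rl ((D.Λ i).v m c x)).cut (S.ct i l)) ((Om D c l).indicator (FZ D m c p i))| = 4 * π := by
  obtain ⟨L, hk⟩ := H.lok
  have s := ph_src hS D l i ha
  have im : Ph D l c '' N0 Lm = Om D c l := ph_img hS D l i
  have o0 := (Lm.M.sys.w ()).op_sd false
  have cl := clop hS D l ha.2.2.2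
  have ld := fun x (hx : x ∈ N0 Lm) => Met55.pd_ld (s hx)
  have lo := ((D.Λ i).Λ m c).ln_on p
  have cF := lo.cl_F isOpen_univ
  have one : Dfl49.One K 1 0 (Om D c l) := by
    simpa [M.pm] using Dfl49.one_W ha hK (only hS l ha.2.2.2) le_rfl
  have z0 : ∀ z ∈ Om D c l, 0 < K.tm z → FZ D m c p i z = 0 := fun z hz k => by
    obtain ⟨x, hx, rfl⟩ := im.ge hz
    obtain ⟨y, h1, h2⟩ := (Dfl49.nk_image K one.J).ge (show 0 < 1 * K.tm _ by rwa [one_mul])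
    obtain ⟨q, h3, h4⟩ := hK.exists_nj ha (h2 ▸ K.ψ.map_source (K.mem_src.2 (one.J h1.2)))
    have h5 : (S.I l).ψ x ∈ range (S.M.bn ((S.I l).f' ())).j := by
      rw [hS.wall l]
      exact ⟨q, ((D.W.φ c).injOn (s hx).2 ((D.W.mem_src c).2 h3) h4).symm⟩
    refine pm_inj (b := 0) (ld x hx) ?_
    rw [pm_FZ hS D l _ ha L hx, pm_zero, F_band L _ hx ((Met55.mem_band _ () (s hx).1).1 h5)]
    rfl
  have cs : Cs (D.W.Z c).I 2 (Om D c l) ((Om D c l).indicator (FZ D m c p i)) :=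
    (cs_indicator cl.2 (cF.mono (subset_univ _)) (one.cpt 0) inter_subset_left fun z hz k =>
      z0 z hz (by simpa [hz] using k)).mono inter_subset_left
  obtain ⟨e, d, T, hT⟩ := H.lx.lat
  have so : Int54.SameOn Lm.M.o (pm Lm.X.I (D.W.Z c).I (Ph D l c) (D.W.o c)) (N0 Lm) := fun x hx => by
    have := Int54.SameOn.trans ((S.I l).ori.mono (LOK.hs hS l i)) (Int54.SameOn.pm
      ((D.W.oφ c).mono (subset_refl _)) (fun y hy => Met55.pd_ld (s hy).1) fun y hy => (s hy).2) x hx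
    rwa [pm_comp (f := (S.I l).ψ) ((Met55.pd_ld (s hx).2).mdifferentiableAt ne0)
      ((Met55.pd_ld (s hx).1).mdifferentiableAt ne0)] at this
  have T' := T.push (Ph D l c) s (D.W.ori c) so
  rw [im] at T'
  set w := (Om D c l).indicator (FZ D m c p i)
  have a : (ip (D.W.Z c).I (D.W.o c) w (psh (Ph D l c) (e ())) / (2 * π)) ^ 2 / d () = -1 := by
    rw [← hT (S.sg l i), (T'.cs ()).ip_congr (c' := FZ D m c p i) fun _ k => indicator_of_mem k _,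
      (T.cs ()).ip_psh _ s (D.W.ori c) T.ori so,
      (T.cs ()).ip_congr fun x hx => pm_FZ hS D l i ha L hx,
      ((T.cs ()).mono (subset_univ _)).ip_coh T.ori ((on0 _).cl_F isOpen_univ).sm
        ((Lm.N _).ok.cl_F isOpen_univ).sm (Line51.Uni.ex_F isOpen_univ
          (Line51.Iso.refl isOpen_univ (Lm.N _).ok).toUni (Lm.N _).ok (on0 _))]
  set A := ip (D.W.Z c).I (D.W.o c) w (psh (Ph D l c) (e ()))
  have a0 : A ≠ 0 := fun k => by simp [k] at a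
  have d0 : d () ≠ 0 := fun k => by simp [k] at a
  have ho := ha.2.2.1
  obtain ⟨C, bd⟩ := Cht98.bd_W (D.Λ i) m ho
  have ok := Num57.OK.of_base (D.W.Z c).dim ((D.Λ i).B_ok m c) ((D.Λ i).G_ok m ho)
  refine ⟨⟨hY.yd, (D.Λ i).B_ok m c, (D.Λ i).G_ok m ho, cl, one, ?_,
    ⟨ok, ⟨C, bd.tame⟩, fun a b k r => ⟨C, bd.o a b k r⟩⟩, cs, fun z hz r => ?_, fun z k => ?_,
    fun f hf => ⟨ip (D.W.Z c).I (D.W.o c) f (psh (Ph D l c) (e ())) / A, ?_⟩, ?_, ?_⟩, ?_⟩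
  · rw [← im]
    refine ⟨H.lx.sc.1.image _ ((Ph D l c).contMDiffOn.continuousOn.mono s), ?_⟩
    rintro _ ⟨x, hx, rfl⟩
    exact image_singleton ▸ (H.lx.sc.2 x hx).image (Ph D l c).toOpenPartialHomeomorph s
      (singleton_subset_iff.2 hx)
  · rw [fL_eq D l _ ha]
    exact congrArg (Num57.e2 · _ _) (indicator_of_mem hz _)
  · exact indicator_apply_eq_zero.2 fun hz => z0 z hz k
  · refine T'.ex (hf.sub ((cs.on _).smul _)) fun ⟨⟩ => ?_
    rw [(T'.cs ()).ip_sub T'.ori hf.sm ((cs.on _).smul _).sm, ip_smul, div_mul_cancel₀ _ a0, sub_self]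
  · have v := (Brn93.ok_ov ((D.W.L m c).F_vol p) (D.W.ori c)).2
    rw [(D.W.L m c).ov_F (Mark.mem_Ω _ ho)] at v
    refine (Int54.integ_congr_ori ok.ori (D.W.ori c) v _).trans ((T'.diag (cs.on _) cs).trans ?_)
    rw [Fintype.sum_unique]
    have := Real.pi_pos
    field_simp at a ⊢
    linarith
  · have h1 := (hz_dif ((S.I l).g ())).2 H.lx.hz
    rw [hS.wall l] at h1
    exact (hz_dif g).1 h1
  · obtain ⟨hd, dg⟩ := H.deg (S.sg l i)
    obtain ⟨u, hu⟩ := iso_ph hS D l i ha L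
    have hs : ∀ θ t, (Lm.cut (S.sg l i)).γ θ t ∈ N0 Lm := fun θ t => (hS.cut l i).sub ⟨(θ, t), rfl⟩
    have h0 := fun θ => hd.h0 θ 0 le_rfl
    have h1 := fun θ => hd.h1 θ 1 le_rfl
    have f := Cut54.Deg.flx (L := ((D.Λ i).Λ m c).ln p)
      (γ := fun θ t => Ph D l c ((Lm.cut (S.sg l i)).γ θ t)) (dg.uni hd.sm h0 h1 hs hu.toUni)
      isOpen_univ lo (fun y => ((pd_mp _ s).sm _ (hs _ _)).comp y (hd.sm y))
      (fun θ => congrArg _ (h0 θ)) (fun θ => congrArg _ (h1 θ)) fun _ _ => trivial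
    rw [Hol14.flux_congr (w' := FZ D m c p i) fun _ ⟨y, k⟩ =>
      indicator_of_mem (k ▸ im.le ⟨_, hs _ _, rfl⟩) _]
    refine (congrArg abs f).trans ?_
    rw [abs_of_pos (by positivity)]
    push_cast
    ring


omit D in
theorem exists_G : ∃ G : (Lm.M.bn ()).Y.M ≃ₘ^∞⟮(Lm.M.bn ()).Y.I, (S.M.bn l).Y.I⟯ (S.M.bn l).Y.M,
    ∀ q, (S.I l).ψ ((Lm.M.bn ()).j q) = (S.M.bn l).j (G q.1, q.2) := by
  rw [← hS.wall l]
  exact ⟨_, (S.I l).jj ()⟩

omit hS D l i in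
theorem Cv4.comp {Y Y' : Mf 3} {cv : Rod53.S3' → Y.M} (h : Cv4 cv) (G : Y.M ≃ₘ^∞⟮Y.I, Y'.I⟯ Y'.M) :
    Cv4 (G ∘ cv) :=
  ⟨fun y => IsLocalDiffeomorphAt.comp _ _ (h.ld y) (G.isLocalDiffeomorph _), G.surjective.comp h.sj,
    fun y y' => G.injective.eq_iff.trans (h.dk y y')⟩

omit hS D l i in
/-- **LEAF GEO2** -/
theorem geo2 (H : LH Lm) (dk : DeckStmt) : Geo2Stmt Lm := fun S D i l m c p Wi Y g K hS ha hY hK => by
  obtain ⟨i1, i2⟩ := ins hS D l i H ha hY hK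
  obtain ⟨L, hk⟩ := H.lok
  obtain ⟨G, hG⟩ := exists_G hS l
  have := Lm.M.cpt
  have s := ph_src hS D l i ha
  have h1 := pl hS l ha
  have ho := ha.2.2.1
  have e : Om D c l = D.W.φ c '' ((S.I l).ψ '' N0 Lm) := by rw [LOK.img hS l i]
  have li : ∀ x ∈ N0 Lm, (S.I l).ψ.symm ((D.W.φ c).symm (D.W.φ c ((S.I l).ψ x))) = x := fun x hx =>
    (Ph D l c).left_inv (s hx)
  generalize hw : (Om D c l).indicator (FZ D m c p i) = w at i1 i2
  have ew : ∀ x ∈ Om D c l, w x = FZ D m c p i x := fun x hx => hw ▸ indicator_of_mem hx _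
  rw [e] at i1 ew ⊢
  have fr := L.frZ hS D l ha.2.1 h1 i m
  have lo := ((D.Λ i).Λ m c).ln_on p
  have cv : Cv4 L.L.c := ⟨L.L.ld, L.L.sj, dk _ _ _ _ _ _ L.L⟩
  have tJ : ∀ t, 0 < t → t ∈ Nd18.Jv (Cht98.np 1 false) (Cht98.nq 1 false) := fun t ht =>
    Dfl49.nk_J ha hK ▸ i1.one.J (show 0 < 1 * t by rwa [one_mul])
  have m1 := fun t ht => Cht98.li_mem le_rfl (tJ t ht)
  have m2 : ∀ t, 0 < t → Cht98.li 1 false t ∈ Ioo (-3 : ℝ) 0 := fun t ht =>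
    ⟨by linarith [(m1 t ht).1.1], by simpa [dom] using (m1 t ht).2⟩
  have e1 : ∀ y t, 0 < t → K.ψ ((g.symm ∘ G) y, t) =
      D.W.φ c ((S.I l).ψ ((Lm.M.bn ()).j (y, Cht98.li 1 false t))) := fun y t ht => by
    rw [Cht98.isNk_ψ ha hK (Dfl49.nk_J ha hK ▸ tJ t ht), hG, show p.2 l = 1 from ha.2.1.2 ha.2.2.2]
    simp only [comp_apply, Diffeomorph.apply_symm_apply]
    rfl
  refine ⟨⟨_, L.DZ hS D l ha.2.1 h1 i, L.L.P, L.L.hT (p.2 l), -(L.k (S.sg l i)) / (4 : ℕ), w,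
    g.symm ∘ G ∘ L.L.c, ((D.Λ i).Λ m c).ln p, L.sZ D l i m⟩,
    ⟨L.mo hS D l ha.2.1 h1 i Lns4.neck ho m, ⟨_, L.L.band.pos (-2), fun x hx => if_pos hx⟩, i1, ?_, lo,
      ?_, rfl, fr, fun b x hx => ?_, (cv.comp G).comp g.symm, fun b y t ht h0 => ?_,
      fun b x hx ht => ?_, fun t => L.L.g (Cht98.li 1 false t), fun t ht t' ht' k => ?_,
      fun b ⟨y, t⟩ ht hx => ?_⟩, i2⟩
  · have : |(L.k (S.sg l i) : ℝ)| = 2 := by exact_mod_cast (hk _).2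
    show |(-(L.k (S.sg l i)) / (4 : ℕ) : ℝ)| = 1 / 2
    rw [abs_div, abs_neg, this]
    norm_num
  · have := LLay.B_eq ((D.Λ i).Λ m c) (Mark.mem_Ω _ ho)
    exact this.trans (congrArg (Ln.base _ _) (congrArg Base.o this).symm)
  · exact (ew x ((L.DZ hS D l ha.2.1 h1 i).sub b hx)).trans ((fr b).F_fr
      ((L.DZ hS D l ha.2.1 h1 i).ch b).op (lo.mono (subset_univ _)).sa hx)
  · obtain ⟨k1, k2, k3⟩ := L.L.band.eq b y _ (m2 t ht) h0
    have e2 := li _ (L.L.D.sub b k1)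
    simp only [show K.ψ ((g.symm ∘ G ∘ L.L.c) y, t) = _ from e1 (L.L.c y) t ht]
    exact ⟨⟨_, ⟨_, k1, rfl⟩, rfl⟩, (congrArg (L.L.D.u b) e2).trans k2, _,
      Real.sqrt_pos.2 (L.L.band.pos _), (congrArg (L.L.D.w b) e2).trans k3⟩
  · obtain ⟨_, ⟨x, hx, rfl⟩, rfl⟩ := hx
    have x0 := L.L.D.sub b hx
    obtain ⟨y, k1, k2⟩ := (Dfl49.nk_image K i1.one.J).ge (show 0 < 1 * K.tm _ by rwa [one_mul])
    obtain ⟨q, k3, k4⟩ := hK.exists_nj ha (k2 ▸ K.ψ.map_source (K.mem_src.2 (i1.one.J k1.2)))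
    have k5 : (S.I l).ψ x = (S.I l).ψ ((Lm.M.bn ()).j (G.symm q.1, q.2)) := by
      rw [hG, G.apply_symm_apply]
      exact (D.W.φ c).injOn (s x0).2 ((D.W.mem_src c).2 k3) k4
    obtain rfl := (S.I l).ψ.injOn (s x0).1 ((S.I l).sub () ⟨_, rfl⟩) k5
    have := L.L.fl _ _ (L.L.band.hi b _ hx)
    rwa [← li _ x0] at this
  · refine L.L.band.up.strictMono.monotone (((strictMonoOn_len 1 false).le_iff_le (m1 t ht).2
      (m1 t' ht').2).1 ?_)
    rwa [Cht98.len_li le_rfl (tJ t ht), Cht98.len_li le_rfl (tJ t' ht')]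
  · obtain ⟨y, rfl⟩ := (g.symm.surjective.comp G.surjective) y
    have x0 : (Lm.M.bn ()).j (y, Cht98.li 1 false t) ∈ N0 Lm :=
      (Lm.M.bn ()).j_mem_sd.2 (by simpa [M.pm] using (m2 t ht).2)
    have e2 := li _ x0
    have k := (L.L.D.pre _ (LOK.hs hS l i) ((L.DX (LOK.hs hS l i)).pre _
      (fun _ h => (LOK.src' hS D l ha.2.1 h1 i h).2) hx).1).1
    erw [e1 y t ht] at k ⊢
    rw [e2] at k
    exact (congrArg (‖L.L.D.w b ·‖ ^ 2) e2).trans (Lns4.neck _ _ _ _ _ _ L.L 0 b _ (m2 t ht) k).1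

end Crest.Agent.X212.Lix26
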