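import Crest.Agent.X212.Lix26.Defs
import Crest.Agent.X212.Kl48.Job
import Crest.Agent.X212.Kit16.Pt
import Crest.Agent.X212.Eqv71.Cfg

/-!
# Row 212, RF-LIX (helper26): the levels and the numbers inside one wall
-/

set_option autoImplicit false
set_option linter.unusedSectionVars false
noncomputable section
open scoped Manifold ContDiff Topology
open Set Function Filter MeasureTheory

namespace Crest.Agent.X212.Lix26
open An M Nd18 Rdc90 Rf65
open Qab60 (Ab)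

variable {Wi : Type} {X : Mf 4} {A κ lam : Type} [Fintype A] [Fintype κ] [Fintype lam]
  [DecidableEq lam] {M : Mark X A κ} {W : World M} {N : ML M lam} {Λ : Lns W N}
  {A' h : Type} [Fintype A'] [DecidableEq A'] [Fintype h] {r n : ℕ}
  {J : Job Wi Λ A' h r n} {c : M.Cl} {δ : ℝ} {l : A} {y z : J.Obc c} {π : Reg A}

theorem int_of_apx {x : ℝ} (h : ∀ ε > 0, ∃ n : ℤ, |x - n| < ε) : ∃ n : ℤ, x = n :=
  let ⟨n, e⟩ := Int.isClosedEmbedding_coe_real.isClosed_range.closure_subset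
    (Metric.mem_closure_iff.2 fun ε hε => let ⟨n, e⟩ := h ε hε; ⟨n, ⟨n, rfl⟩, e⟩)
  ⟨n, e.symm⟩

/-- anti-self-dual connections have a non-negative level, flat if it vanishes -/
theorem ea_fl (hπ : π ∈ Pc c) (g : Go δ z {π}) (e : EA 0 z π) (k : z.kap (W.pc c π) = 0) :
    Fl z π := fun x hx => by
  have o := (Cyl58.isClopen_pc W.toCaps hπ).isOpen
  have hB := Λ.B_ok J.m c
  have hG := Λ.G_ok J.m g.O
  have i : IntegrableOn z.kd (W.pc c π) (J.G c z.s).F.μ := by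
    simpa only [Caps.un, biUnion_singleton] using g.int
  have q : ∀ x, ‖z.x.m.p2 (J.B c) x (z.x.m.Fg (J.G c z.s).F z.x.W x)‖ ^ 2 =
      (‖z.x.m.Fg (J.G c z.s).F z.x.W x‖ ^ 2 - 128 * Real.pi ^ 2 * z.kd x) / 2 := fun x => by
    linarith [Wz78.norm_Fg_sq (x := x) hG g.adm.conn hB]
  have a := e.le
  simp only [q] at a
  rw [integral_div, integral_sub e.int (i.const_mul _), integral_const_mul,
    show ∫ x in W.pc c π, z.kd x ∂(J.G c z.s).F.μ = 0 from k] at a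
  have := Cht98.openPos (J.G c z.s).F.toPre
  have f := ((Mp86.sm_Fg hB hG g.adm.ok g.adm.conn).continuous.norm.pow 2).continuousOn
    (s := W.pc c π)
  simpa using Measure.eqOn_open_of_ae_eq ((integral_eq_zero_iff_of_nonneg (fun _ => sq_nonneg _)
    e.int).1 ((integral_nonneg fun _ => sq_nonneg _).antisymm' (by linarith))) o f
    continuousOn_const hx

theorem un_rd {ξ} (a : y.x.m.OK (W.Z c).I (J.B c))
    (R : Abel74.RedOn (J.G c y.s).F y.x.m y.x.W (W.pc c π) ξ) : ParS (J.G c y.s).F y.x (W.pc c π) ξ ∧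
      Un y π :=
  have p : ParS (J.G c y.s).F y.x (W.pc c π) ξ :=
    ⟨fun x hx => (R.sm x hx).contMDiffWithinAt, R.mem, fun a x hx => R.par x hx a⟩
  ⟨p, ξ, ⟨p.sm, p.mem, p.par⟩, fun x hx => by
    rw [← sq_eq_sq₀ (norm_nonneg _) (by norm_num), Abel74.norm_sq a (R.mem x hx) (R.sq x hx)]
    norm_num⟩

/-- the numbers of a filler -/
def Nm (δ : ℝ) (z : J.Obc c) (l : A) : Prop :=
  (Fl z (hp l false) → 0 ≤ ia δ z (hp l false) ∧ 0 ≤ idr δ z (hp l false)) ∧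
  ∀ ξ, Ab (J.B c) (J.G c z.s) (W.pc c (hp l false)) z.x ξ → EA 0 z (hp l false) →
    (kI z l = 1 / 4 → 2 ≤ ia δ z (hp l false) ∧ 0 ≤ idr δ z (hp l false)) ∧
    (kI z l = 1 → 1 ≤ ia δ z (hp l false) ∧ 3 ≤ ia δ z (hp l false) + idr δ z (hp l false))

/-- **the core**; `P` : the cut is kept -/
theorem core (hJ : J.OK) (hl : l ∈ cylW c) (hπ : hp l false ∈ Pc c) (d0 : 0 < δ)
    (sc : SC (W.pc c (hp l false))) (ne : (W.pc c (hp l false)).Nonempty)
    (nil : Ink3.Nil (J.xs l).N) (py : PY (J.xs l).D 0) (wl : WlStmt (J.xs l).D) (cat : Cat J c)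
    (fil : FilAt J c δ l) (dif : ∀ z z' : J.Obc c, z.s = y.s → z'.s = y.s → Go δ z {hp l false} →
      Go δ z' {hp l false} → (J.xs l).D.Eqv (z.β l false) (z'.β l false) → ∃ m : ℤ, kI z' l - kI z l = m)
    (num : ∀ z : J.Obc c, z.s = y.s → Go δ z {hp l false} → Nm δ z l)
    (a : y.x.Adm (J.B c) (J.G c y.s)) (g : Go δ y {hp l false})
    (cr : ∀ b, (J.xs l).N.Crit (J.xs l).D (y.β l b))
    (bk : (J.xs l).N.Brk (J.xs l).D 0 (y.β l false) (y.ζ l false) (y.β l true) (y.ζ l true) (y.k l)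
      (y.j l)) (k0 : 0 ≤ kI y l) (fl : kI y l = 0 → Fl y (hp l false)) {P : Prop} [Decidable P]
    (cut : Fl y (hp l false) → ¬P) (d1 : dz (J.xs l).D (y.β l true) ≠ 0) :
    ∃ (z : J.Obc c) (e : ℕ), Fil δ 0 y z l (hp l false) ∧ kI y l + y.k l = kI z l + e ∧
      let m : ℤ := e + if P then 0 else 1
      1 ≤ ia δ z (hp l false) + 8 * m ∧ 2 ≤ ia δ z (hp l false) + idr δ z (hp l false) + 6 * m ∧
      (ia δ z (hp l false) + idr δ z (hp l false) + 6 * m = 2 → m = 0 ∧ y.j l = 0 ∧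
        dz (J.xs l).D (y.β l true) = 1 ∧ idr δ z (hp l false) = 0 ∧ kI z l = 1 / 4) := by
  classical
  have hD := (hJ.xs l).1.yd
  obtain ⟨w1, w2, -, w4⟩ := wl _ 0 hD nil py
  obtain ⟨k1, k2⟩ := w4 _ _ _ _ _ _ (cr false) bk
  have bs := fun b => w1 _ (cr b)
  have gb : ∀ {z : J.Obc c}, Go δ z {hp l false} → Bs (J.xs l).D (z.β l false) := fun g =>
    g.bs (⟨l, hl⟩, false) ⟨_, rfl, Kl48.hp_self⟩
  have o := (Cyl58.isClopen_pc W.toCaps hπ).isOpen
  obtain ⟨x₀, hx₀⟩ := ne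
  by_cases t : kI y l + y.k l = 0
  · have f := fl (by linarith)
    obtain ⟨ξ, R⟩ := Loc8.exists_rd (Λ.B_ok J.m c) (Λ.G_ok J.m g.O) a o hx₀ (sc.2 _ hx₀) (.inr f)
    obtain ⟨n1, n2⟩ := (num y rfl g).1 f
    refine ⟨y, 0, ⟨rfl, g, .inr f, Kl48.ea_flat hπ f, (un_rd a.ok R.toRedOn).2, k0,
      (Kl48.brk0 bk (by_contra fun e => by linarith [k2 e])).1 ▸ Kl48.eqv_refl (bs false)⟩,
      by rw [Nat.cast_zero]; linarith, ?_⟩
    simp only [if_neg (cut f)]
    omega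
  replace t : 0 < kI y l + y.k l := (add_nonneg k0 k1).lt_of_ne' t
  obtain ⟨z, ξ, j, j2, s, gz, A, ea, ev, kz, od⟩ := fil y _ g.br g.O a (bs true)
  obtain ⟨m, hm⟩ : ∃ m : ℤ, kI y l + y.k l - kI z l = m := int_of_apx fun ε hε => by
    obtain ⟨y', m, s', g', ev', e⟩ := cat hJ l hl nil 0 py δ y _ _ _ _ _ _ d0 hπ Kl48.hp_self g
      (cr false) bk ε hε
    have b₁ := Eqv71.ad0 (gb gz).adm.adm
    have b₂ := Eqv71.ad0 (bs true).adm.adm
    obtain ⟨m', e'⟩ := dif z y' s s' gz g' (Eqv71.IsoOn.trans hD.B hD.G isOpen_univ b₁ b₂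
      (Eqv71.ad0 (gb g').adm.adm) (Eqv71.IsoOn.symm hD.B hD.G isOpen_univ b₂ b₁ ev) ev')
    refine ⟨m' - m, ?_⟩
    rw [abs_sub_comm] at e
    convert e using 2
    push_cast
    linarith
  obtain ⟨u1, u2⟩ := un_rd A.adm.ok A.rd.toRedOn
  obtain ⟨n0, n1⟩ := num z s gz
  obtain ⟨n1, n2⟩ := n1 ξ A ea
  have F : Fil δ 0 y z l (hp l false) := ⟨s, gz, .inl (Kit16.lin_of_red A.adm.conn o sc.1
    ⟨ξ, u1, x₀, hx₀, fun e => by simpa [e] using Abel74.norm_sq A.adm.ok (A.rd.mem _ hx₀) (A.rd.sq _ hx₀)⟩),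
    ea, u2, kz.ge.trans' (by positivity), ev⟩
  have m0 : (-1 : ℝ) < m := by
    have : (j : ℝ) ≤ 2 := by exact_mod_cast j2
    nlinarith [(j.cast_nonneg : (0 : ℝ) ≤ j)]
  obtain ⟨e, rfl⟩ := Int.eq_ofNat_of_zero_le (show 0 ≤ m by
    have : (-1 : ℤ) < m := by exact_mod_cast m0
    omega)
  refine ⟨z, e, F, by push_cast at hm; linarith, ?_⟩
  have i0 : (0 : ℤ) ≤ if P then 0 else 1 := by split_ifs <;> norm_num
  interval_cases j
  · have kz : kI z l = 0 := by simpa using kz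
    obtain ⟨n1, n2⟩ := n0 (ea_fl hπ gz ea kz)
    have : (0 : ℤ) < e := by exact_mod_cast (show (0 : ℝ) < ((e : ℤ) : ℝ) by linarith)
    intro m
    omega
  · have kz : kI z l = 1 / 4 := by simpa using kz
    obtain ⟨n1, n2⟩ := n1 kz
    intro m
    refine ⟨by omega, by omega, fun q => ⟨by omega, by_contra fun j0 => ?_, ?_, by omega, kz⟩⟩
    · obtain rfl : e = 0 := by omega
      have p : P := by_contra fun p => by simp only [m, if_neg p] at q; omega
      have k3 : 0 < kI y l := k0.lt_of_ne' fun e => cut (fl e) p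
      obtain ⟨z', _, j, j2, s', g', -, -, ev', kz', -⟩ := fil y _ g.br g.O a (bs false)
      obtain ⟨n, e'⟩ := dif y z' rfl s' g g' ev'
      have k4 := k2 j0
      have e2 : (0 : ℝ) < (j : ℝ) ^ 2 - 4 * n := by linarith
      have e3 : (j : ℝ) ^ 2 - 4 * n < 1 := by push_cast at hm; linarith
      have e2 : (0 : ℤ) < (j : ℤ) ^ 2 - 4 * n := by exact_mod_cast e2
      have e3 : (j : ℤ) ^ 2 - 4 * n < 1 := by exact_mod_cast e3
      omega
    · have := (w2 _ (bs true)).2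
      have := od rfl
      omega
  · obtain ⟨n1, n2⟩ := n2 (by rw [kz]; norm_num)
    intro m
    omega

end Crest.Agent.X212.Lix26
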