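import Crest.Agent.X212.Lix26.Geo
import Crest.Agent.X212.Sm25.Uni
import Crest.Agent.X212.Uq54.Main
import Crest.Agent.X212.Cay24.Qa
import Crest.Agent.X212.Sep15.Spl

/-!
# Row 212, RF-LIX (helper26): no spinor inside; the cut is dropped at a flat connection
-/

set_option autoImplicit false
set_option linter.unusedSectionVars false
noncomputable section
open scoped Manifold ContDiff Topology Real
open Set Function Filter MeasureTheory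
open Crest.Agent.R208.F (Ext)

namespace Crest.Agent.X212.Lix26
open An Nd18 Qab60 Lns95 Sm25
open M (Mf)
open Abel74 (fm)
open Dfl49 (PI)
open Cht98 (Agr)
open Wrd81 (TmIn)

section gauge
variable {E : Type} [NormedAddCommGroup E] [NormedSpace ℝ E] [FiniteDimensional ℝ E]
  [MeasurableSpace E] [BorelSpace E]
  {HM : Type} [TopologicalSpace HM] {I : ModelWithCorners ℝ E HM} [I.Boundaryless]
  {M : Type} [TopologicalSpace M] [ChartedSpace HM M] [IsManifold I ∞ M] [T2Space M]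
  [MeasurableSpace M] [BorelSpace M] [SecondCountableTopology M] {lam ι : Type} [Fintype lam]
  [Fintype ι]

theorem fm_flat {F : Fr I M ι} {m : Md M ι lam} {W : m.Cn} (ξ : M → m.A) {x : M}
    (h : m.Fg F W x = 0) : fm F m W ξ x = 0 := by
  simp [fm, Num57.fm2, Abel74.fF, Finset.sum_apply, h]

/-- the row of the cut has no solution at a flat point -/
theorem cut0 {r : ℕ} {T Wi : Type} {Q : Set T} {B : Base M ι lam} {G : T → Geo I M ι lam}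
    {Ω : Set M} {k : Cut M lam} (τ : Wi → Tc M lam r) (hB : B.OK I) (cl : IsClopen Ω)
    (sc : Rf65.SC Ω) (H : ∀ t ∈ Q, (G t).OK B ∧ (∃ C, (G t).F.Tame C) ∧ k.OK B (G t).F ∧
      ∀ t' ∈ Q, Agr (G t) (G t') Ω) (hs : k.supp ⊆ Ω) :
    ∃ C : Wi → ℝ, (∀ w, 0 ≤ C w) ∧ ∀ t ∈ Q, ∀ (S : Finset Wi) (a : Wi → ℝ),
      (∀ w ∈ S, a w ≠ 0 → ∃ Ω', XiIn I Ω' (τ w).ξ) → ∑ w ∈ S, |a w| * C w < 1 →
      ∀ c ξ, Ab B (G t) Ω c ξ → (∀ x ∈ Ω, c.m.Fg (G t).F c.W x = 0) →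
      ∀ ψ, ¬k.Sol B (G t).F (fun x => ∑ w ∈ S, a w • x.tc B (G t).F k (τ w)) c ψ := by
  by_cases h0 : ∃ t ∈ Q, ∃ (c : Cfg M ι lam r) (ξ : M → c.m.A), Ab B (G t) Ω c ξ ∧
    ∀ x ∈ Ω, c.m.Fg (G t).F c.W x = 0
  swap
  · exact ⟨0, fun _ => le_rfl, fun t ht _ _ _ _ c ξ A S => (h0 ⟨t, ht, c, ξ, A, S⟩).elim⟩
  obtain ⟨t₀, h₀, c₀, ξ₀, A₀, S₀⟩ := h0
  obtain ⟨g₀, tm₀, k₀, ag₀⟩ := H t₀ h₀
  refine ⟨fun w => ‖c₀.tc B (G t₀).F k (τ w)‖, fun w => by positivity,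
    fun t ht S a hi hS c ξ A L ψ s => ?_⟩
  obtain ⟨gt, tm, kt, ag⟩ := H t ht
  have nm : ‖∑ w ∈ S, a w • c₀.tc B (G t₀).F k (τ w)‖ < 1 :=
    ((norm_sum_le S fun w => a w • c₀.tc B (G t₀).F k (τ w)).trans (Finset.sum_le_sum fun w _ =>
      ContinuousLinearMap.opNorm_smul_le _ _)).trans_lt hS
  have g := kt_agr hB g₀ gt (ag₀ t ht) cl.1 tm₀ tm
  obtain ⟨W', A₁, e₁, eW⟩ := Cay24.trnStmt r B (G t) (G t₀) Ω c ξ hB gt g₀ A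
  obtain ⟨v, h, -⟩ := Uq54.uq I M ι lam r r B _ Ω c₀ ξ₀ ⟨c.m, W', c.Φ, c.z⟩ ξ hB g₀ sc A₀ A₁ fun x hx =>
    (congrFun e₁ x).trans ((fm_flat ξ (L x hx)).trans (fm_flat ξ₀ (S₀ x hx)).symm)
  have pv : PI (G t₀).F c₀ c Ω v := ⟨h.iso, fun x hx a => by
    rw [← eW Ω cl.2 (fun a x hx => ⟨(ag t₀ h₀).e x hx a, (ag t₀ h₀).a x hx a⟩) a x hx]
    exact h.par x hx a⟩
  obtain ⟨φ, f⟩ := ab_sur g A₀ A pv hs ψ
  have s₁ := (ab_sol g A₀ A pv hs k₀ kt hi f).1 s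
  have := Hol14.flat_ker hB A₀.adm.ok k₀ A₀.adm.conn g₀ (fun x hx => S₀ x (hs hx)) nm s₁.2
  simpa [this] using s₁.1

end gauge

section scene
open M G75 Ins26 Rf65
variable {κ lam : Type} [Fintype κ] [Fintype lam] [DecidableEq lam] {Lm : LM κ lam}
  {S : Scene Lm} {D : S.Dat} {i : S.L} {Wi A' h : Type} [Fintype A'] [DecidableEq A']
  [Fintype h] {r n : ℕ} {J : Job Wi (D.Λ i) A' h r n} {c : S.M.Cl} {l : S.ls} {σ : Cel A'}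
  {q : Wi →₀ ℝ} {y : J.Obc c} (H : LH Lm) (hS : S.OK) (hJ : J.OK) (hl : l.1 ∈ c.1)
include H hS hJ hl

/-- **VAN** -/
theorem van (hσ : σ ∈ J.𝒦) (hy : Job.Sol σ q y) (nl : Nl J l)
    (hv : ∀ w, J.co w y.s ≠ 0 → TmIn S.X.I ((S.M.sys.w l).sd true) (J.tw w)) :
    ¬y.TF (hp l.1 false) := by
  obtain ⟨K, hK⟩ := H.lok
  have p := piece hS l hl
  refine LOK.van hS l.2 Kl48.hp_self hJ hσ p K Lns4.neck (fun s => (hK s).2.trans_le (by norm_num)) hy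
    (qt_in hS l.2 Kl48.hp_self hJ hσ p hy.ov ⟨nl.1.J0, nl.1.J2, fun w => congrFun nl.2 w⟩ fun w =>
      (em _).imp id fun k => ?_)
  obtain ⟨V, h1, h2⟩ := hJ.tw w
  exact ⟨_, inter_subset_left.trans (hJ.hw_sub hσ hy.ov h2 k), Sep15.Spl.tm_i h1 (hv w k),
    (S.M.sys.w l).dj.mono_left inter_subset_right⟩

/-- the topology of the inside -/
theorem insJ {s : A' → ℝ} (ha : Act J.m c l.1 (some false) (J.Θ s)) :
    ∃ w, Ins (J.K c l.1 _ _ ha) (Om D c l) w :=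
  ⟨_, (ins hS D l i H ha (hJ.xs l).1 (hJ.nk c l _ _ ha)).1⟩

/-- **CUT0** -/
theorem cutJ {a : h} (nb : J.nb a ⊆ (S.M.sys.w l).sd false) : Sml fun Adm => ∀ σ ∈ J.𝒦, ∀ q (y : J.Obc c),
    Adm q → Job.Sol σ q y → ¬y.TF (hp l.1 false) → Fl y (hp l.1 false) → a ∉ y.H := by
  have p := piece hS l hl
  have pc := pc_eq hS D l hl
  have k : J.nb a ⊆ ⋃ ρ ∈ ({hp l.1 false} : Set _), S.M.sys.U ρ := by
    rw [biUnion_singleton, U_in hS l.2 Kl48.hp_self p.toIsReg]; exact nb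
  have un : a ∈ J.unc c := Job.unc_of (fun _ h => h ▸ p) k
  have ac : ∀ {s}, (∃ σ ∈ J.𝒦, s ∈ Job.cl σ ∧ J.Ov σ c s) → Act J.m c l.1 (some false) (J.Θ s) :=
    fun ⟨_, h1, _, h2⟩ => ⟨hS.lsp l l.2, hJ.memBr h1 h2, hJ.memO h1 h2, hl⟩
  by_cases e : ∃ s, ∃ σ ∈ J.𝒦, s ∈ Job.cl σ ∧ J.Ov σ c s
  swap
  · exact .of fun _ σ hσ _ y _ hy _ _ _ => e ⟨_, σ, hσ, hy.cell, hy.ov⟩
  obtain ⟨s₀, e⟩ := e
  obtain ⟨_, I₀⟩ := insJ H hS hJ hl (ac e)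
  obtain ⟨C, h0, hC⟩ := cut0 (Q := {s | ∃ σ ∈ J.𝒦, s ∈ Job.cl σ ∧ J.Ov σ c s}) (G := J.G c)
    (k := J.cut c a) (fun w => (J.tp c).tc (J.tc a w)) I₀.hB I₀.cl I₀.sc (fun s hs =>
      let ⟨_, I⟩ := insJ H hS hJ hl (ac hs)
      let ⟨σ, h1, _, h2⟩ := hs
      ⟨I.hG, I.tam.tm, hJ.ct σ h1 s h2.1 c h2.2 a un, fun _ k => On.agr hS D l i (ac hs) (ac k)⟩)
    ((hJ.cut_sub k).trans (by rw [Caps.un, biUnion_singleton, pc]))
  choose b hb using fun w => (isCompact_Icc (a := (0 : A' → ℝ)) (b := 1)).exists_bound_of_continuousOn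
    (hJ.cc a w).continuous.continuousOn
  refine ⟨fun w => |b w| * C w, fun w => mul_nonneg (abs_nonneg _) (h0 w),
    fun Adm hA σ hσ q y hq hy v f m => ?_⟩
  have hs : ∃ σ ∈ J.𝒦, y.s ∈ Job.cl σ ∧ J.Ov σ c y.s := ⟨σ, hσ, hy.cell, hy.ov⟩
  obtain ⟨_, I⟩ := insJ H hS hJ hl (ac hs)
  obtain ⟨x, hx⟩ := (S.M.sys.w l).ne false
  rw [Fl, pc] at f
  obtain ⟨ξ, R⟩ := Loc8.exists_rd I.hB I.hG hy.sol.toAdm I.cl.isOpen ⟨x, hx.2, rfl⟩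
    (I.sc.2 _ ⟨x, hx.2, rfl⟩) (.inr f)
  refine hC y.s hs q.support (fun w => q w * J.cc a w y.s)
    (fun w _ k => hJ.tc_in hσ hy.ov (right_ne_zero_of_mul k)) (lt_of_le_of_lt ?_ (hA q hq)) y.x ξ
    ⟨hy.sol.toAdm, R, fun z hz => by_contra fun e => v ⟨z, pc ▸ hz, e⟩⟩ f _ (hy.cut a m)
  rw [sub_zero]
  refine Finset.sum_le_sum fun w _ => ?_
  rw [abs_mul, mul_assoc]
  exact mul_le_mul_of_nonneg_left (mul_le_mul_of_nonneg_right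
    ((hb w _ ⟨fun a => (hy.cell.2 a).1, fun a => (hy.cell.2 a).2⟩).trans (le_abs_self _)) (h0 w))
    (abs_nonneg _)

end scene

end Crest.Agent.X212.Lix26
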