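import Crest.Agent.X212.Lix26.Core
import Crest.Agent.X212.Lix26.Cut
import Crest.Agent.X212.M.Lxw
import Crest.Agent.X212.Dif64.Main

/-!
# Row 212, RF-LIX and RF-LY (helper26): the assembly
-/

set_option autoImplicit false
set_option linter.unusedSectionVars false
noncomputable section
open scoped Manifold ContDiff Topology
open Set Function Filter MeasureTheory

namespace Crest.Agent.X212.Lix26
open An M Nd18 Rdc90 Rf65 G75 Ins26 Lns95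

variable {κ lam : Type} [Fintype κ] [Fintype lam] [DecidableEq lam] {Lm : LM κ lam}

variable (κ lam) in
/-- CY for all cross-sections -/
def CyAll : Prop := ∀ (Y : Mf 3) [CompactSpace Y.M] (D : YD Y.I Y.M κ (lam ⊕ lam)), CyStmt D

variable (Lm) in
/-- a property of all jobs -/
def AllJ (P : ∀ (S : Scene Lm) (D : S.Dat) i Wi r n (_ : Job Wi (D.Λ i) (S.A ⊕ Unit) S.ls r n)
    (_ : S.M.Cl), Prop) : Prop :=
  ∀ S D i Wi r n J c, S.OK → J.OK → P S D i Wi r n J c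

/-- **RF-LY** -/
theorem ly (py : PylStmt Lm) (cy : CyAll κ lam) : LyStmt Lm := fun S D i Wi r n J hS hJ l hl =>
  let ⟨p, cv, k⟩ := py S D i Wi r n J hS hJ l hl
  ⟨p, fun β b => (cy _ _ cv k β b).1⟩

/-- **RF-LIX** -/
theorem lix (H : LH Lm) (ly : LyStmt Lm) (nm : NumStmt Lm)
    (fi : AllJ Lm fun S _ _ _ _ _ J c => ∃ δ₀ > (0 : ℝ), ∀ δ ≤ δ₀, ∀ l ∈ S.ls, l ∈ c.1 → FilAt J c δ l)
    (ct : AllJ Lm fun _ _ _ _ _ _ J c => Cat J c)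
    (wl : AllJ Lm fun _ _ _ _ _ _ J _ => ∀ a, WlStmt (J.xs a).D) : LixStmt Lm := by
  classical
  intro S D i Wi r n J X a₀ j n₀ T c G ha pj
  have hS := G.sc
  have hJ := G.ok
  obtain ⟨δ₁, d1, h1⟩ := fi S D i Wi r n J c hS hJ
  obtain ⟨δ₂, d2, h2⟩ := nm S D i Wi r n J X a₀ j n₀ T c G ha pj
  refine ⟨min δ₁ δ₂, lt_min d1 d2, fun δ hδ => ((h2 δ ⟨hδ.1, hδ.2.trans (min_le_right _ _)⟩).and
    (Lxv20.cut0 G (Lxv20.lok H))).mono fun Adm ⟨h3, h4⟩ sp dc ad =>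
    ⟨fun l hl => (ly S D i Wi r n J hS hJ l hl).1, fun σ hσ q y l hq hy hl =>
      ⟨Lxv20.van G hl hσ (Lxv20.lok H) hy, ?_⟩⟩⟩
  have cw : l.1 ∈ cylW c := ⟨hl, hS.lsp l l.2⟩
  obtain ⟨py, dz⟩ := ly S D i Wi r n J hS hJ l l.2
  obtain ⟨go, bs⟩ := Dif64.go_sol G.loc dc hσ hy
  have fl := h1 δ (hδ.2.trans (min_le_left _ _)) l l.2 hl
  have df := Dif64.difAt G dc ad l.2 hl
  obtain ⟨_, I⟩ := insJ H hS hJ hl (s := y.s) ⟨cw.2, hJ.memBr hσ hy.ov, hJ.memO hσ hy.ov, hl⟩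
  obtain ⟨x, hx⟩ := (S.M.sys.w l).ne false
  obtain ⟨-, k0, f0⟩ := Lxv20.ea G hl hσ (Lxv20.lok H) hy
  have q0 : (J.xs l).q q = 0 := by simp [Xs.q, (pj.nil l cw).2]
  exact core hJ cw (piece hS l hl) hδ.1 (pc_eq hS D l hl ▸ I.sc) (pc_eq hS D l hl ▸ ⟨_, x, hx.2, rfl⟩)
    (pj.nil l cw).1 py (wl S D i Wi r n J c hS hJ l) (ct S D i Wi r n J c hS hJ) fl
    (fun z z' a b g g' e => (df σ hσ q y z z' hy a b g g' e).1)
    (h3 sp dc ad l l.2 hl fl df σ hσ q y · hy) hy.sol.toAdm (go _ (piece hS l hl)) (hy.crit l cw)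
    (q0 ▸ hy.brk l cw) k0 f0 (h4 σ hσ c q y l hq hy hl) (dz _ (bs l cw true))

end Crest.Agent.X212.Lix26
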